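import Mathlib

namespace Vale.Agent.H20.P015

open Zsqrtd

theorem norm_le_of_prime {z : GaussianInt} (hz : Prime z) {p : ℕ} (hp : p.Prime)
    (h : (p : ℤ) ∣ z.norm) : z.norm ≤ (p : ℤ) ^ 2 := by
  have hzp : z ∣ ((p : ℤ) : GaussianInt) := by
    by_contra hnd
    have hcop : IsCoprime z ((p : ℤ) : GaussianInt) :=
      (Irreducible.coprime_iff_not_dvd hz.irreducible).2 hnd
    have hdvd : ((p : ℤ) : GaussianInt) ∣ z * star z := by
      rw [← Zsqrtd.norm_eq_mul_conj]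
      exact (Zsqrtd.intCast_dvd_intCast _ _).2 h
    have h1 : ((p : ℤ) : GaussianInt) ∣ star z := hcop.symm.dvd_of_dvd_mul_left hdvd
    have h2 : ((p : ℤ) : GaussianInt) ∣ z := by
      obtain ⟨w, hw⟩ := h1
      refine ⟨star w, ?_⟩
      have h3 := congrArg star hw
      rw [star_star, star_mul] at h3
      rw [h3, mul_comm]
      simp
    have h4 : IsUnit ((p : ℤ) : GaussianInt) := hcop.isUnit_of_dvd' h2 dvd_rfl
    have h5 := Zsqrtd.isUnit_iff_norm_isUnit _ |>.1 h4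
    rw [Zsqrtd.norm_intCast, Int.isUnit_iff] at h5
    have hp2 : (2 : ℤ) ≤ p := by exact_mod_cast hp.two_le
    rcases h5 with h5 | h5 <;> nlinarith
  obtain ⟨w, hw⟩ := hzp
  have h1 := congrArg Zsqrtd.norm hw
  rw [Zsqrtd.norm_intCast, Zsqrtd.norm_mul] at h1
  have hz0 : 0 ≤ z.norm := GaussianInt.norm_nonneg z
  have hw0 : 0 ≤ w.norm := GaussianInt.norm_nonneg w
  have hp2 : (2 : ℤ) ≤ p := by exact_mod_cast hp.two_le
  have hw1 : 1 ≤ w.norm := by
    rcases lt_or_ge 0 w.norm with h | h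
    · omega
    · have : w.norm = 0 := le_antisymm h hw0
      rw [this] at h1
      nlinarith
  nlinarith

theorem exists_residue {p : ℕ} (hp : p.Prime) (h4 : p ≡ 1 [MOD 4]) (k j : ℤ)
    (hkj : IsCoprime k j) (x y : ℤ) :
    ∃ c : ℕ, ∀ t : ℤ, t ≡ c [ZMOD p] → (p : ℤ) ∣ (x + t * k) ^ 2 + (y + t * j) ^ 2 := by
  have : Fact p.Prime := ⟨hp⟩
  have hp2 : p ≠ 2 := by
    rintro rfl
    exact absurd h4 (by decide)
  have h4' : p % 4 ≠ 3 := by
    have : p % 4 = 1 := h4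
    omega
  obtain ⟨r, hr⟩ := (ZMod.exists_sq_eq_neg_one_iff (p := p)).2 h4'
  have h20 : (2 : ZMod p) ≠ 0 := by
    intro h
    have : ((2 : ℕ) : ZMod p) = 0 := by exact_mod_cast h
    rw [ZMod.natCast_eq_zero_iff] at this
    exact hp2 ((Nat.prime_dvd_prime_iff_eq hp Nat.prime_two).1 this)
  -- one of `k ± r j` is nonzero
  have key : ∃ r : ZMod p, r * r = -1 ∧ (k : ZMod p) + r * j ≠ 0 := by
    by_cases h1 : (k : ZMod p) + r * j = 0
    · refine ⟨-r, by rw [neg_mul_neg]; exact hr.symm, fun h2 => ?_⟩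
      have hk : (k : ZMod p) = 0 := by
        have : (2 : ZMod p) * k = 0 := by linear_combination h1 + h2
        exact (mul_eq_zero.1 this).resolve_left h20
      have hj : (j : ZMod p) = 0 := by
        have : r * j = 0 := by rw [hk, zero_add] at h1; exact h1
        rcases mul_eq_zero.1 this with h | h
        · exfalso
          rw [h, mul_zero] at hr
          exact (neg_ne_zero.2 one_ne_zero) hr
        · exact h
      rw [ZMod.intCast_zmod_eq_zero_iff_dvd] at hk hj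
      have := hkj.isUnit_of_dvd' hk hj
      rw [Int.isUnit_iff] at this
      have hp1 : (2 : ℤ) ≤ p := by exact_mod_cast hp.two_le
      omega
    · exact ⟨r, hr.symm, h1⟩
  obtain ⟨r, hr, h1⟩ := key
  refine ⟨(-((x : ZMod p) + r * y) / ((k : ZMod p) + r * j)).val, fun t ht => ?_⟩
  have ht' : (t : ZMod p) = -((x : ZMod p) + r * y) / ((k : ZMod p) + r * j) := by
    have := (ZMod.intCast_eq_intCast_iff _ _ _).2 ht
    rw [this]
    simp
  rw [← ZMod.intCast_zmod_eq_zero_iff_dvd]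
  push_cast
  have h2 : (t : ZMod p) * ((k : ZMod p) + r * j) = -((x : ZMod p) + r * y) := by
    rw [ht', div_mul_cancel₀ _ h1]
  have h3 : ((x : ZMod p) + t * k) + r * (y + t * j) = 0 := by linear_combination h2
  calc ((x : ZMod p) + t * k) ^ 2 + (y + t * j) ^ 2
      = (((x : ZMod p) + t * k) + r * (y + t * j)) * (((x : ZMod p) + t * k) - r * (y + t * j)) := by
        linear_combination ((y + t * j : ZMod p) ^ 2) * hr
    _ = 0 := by rw [h3, zero_mul]

theorem exists_t (S : Finset (ℤ × ℤ)) (pr : ℤ × ℤ → ℕ) (hinj : Set.InjOn pr S)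
    (hpr : ∀ s ∈ S, (pr s).Prime) (h4 : ∀ s ∈ S, pr s ≡ 1 [MOD 4]) (k j : ℤ)
    (hkj : IsCoprime k j) (T : ℤ) :
    ∃ t : ℤ, T ≤ t ∧ t < T + (∏ s ∈ S, pr s : ℕ) ∧
      ∀ s ∈ S, (pr s : ℤ) ∣ (s.1 + t * k) ^ 2 + (s.2 + t * j) ^ 2 := by
  classical
  have hc : ∀ s : ℤ × ℤ, ∃ c : ℕ, s ∈ S → ∀ t : ℤ, t ≡ c [ZMOD pr s] →
      (pr s : ℤ) ∣ (s.1 + t * k) ^ 2 + (s.2 + t * j) ^ 2 := by
    intro s
    by_cases hs : s ∈ S
    · obtain ⟨c, hc⟩ := exists_residue (hpr s hs) (h4 s hs) k j hkj s.1 s.2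
      exact ⟨c, fun _ => hc⟩
    · exact ⟨0, fun h => absurd h hs⟩
  choose c hc using hc
  obtain ⟨t₀, ht₀⟩ := Nat.chineseRemainderOfFinset c pr S (fun s hs => (hpr s hs).ne_zero)
    (fun s hs s' hs' hne => (Nat.coprime_primes (hpr s hs) (hpr s' hs')).2
      (fun h => hne (hinj hs hs' h)))
  set M : ℕ := ∏ s ∈ S, pr s with hM
  have hM0 : (0 : ℤ) < M := by
    have : 0 < M := Finset.prod_pos (fun s hs => (hpr s hs).pos)
    exact_mod_cast this
  refine ⟨T + (t₀ - T) % M, ?_, ?_, ?_⟩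
  · have := Int.emod_nonneg ((t₀ : ℤ) - T) hM0.ne'
    linarith
  · have := Int.emod_lt_of_pos ((t₀ : ℤ) - T) hM0
    linarith
  · intro s hs
    apply hc s hs
    have h1 : T + ((t₀ : ℤ) - T) % M ≡ t₀ [ZMOD M] := by
      have h2 : ((t₀ : ℤ) - T) % M ≡ (t₀ : ℤ) - T [ZMOD M] := Int.mod_modEq _ _
      have h3 := h2.add_left T
      simpa using h3
    have h2 : (pr s : ℤ) ∣ M := by
      exact_mod_cast Finset.dvd_prod_of_mem pr hs
    have h3 := h1.of_dvd h2
    have h4 : (t₀ : ℤ) ≡ c s [ZMOD pr s] := by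
      exact Int.natCast_modEq_iff.2 (ht₀ s hs)
    exact h3.trans h4

end Vale.Agent.H20.P015
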