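import Vale.Agent.H20.P015.A

namespace Vale.Agent.H20.P015

open Zsqrtd

/-- infinitely many primes `≡ 1 (mod 4)`, attached injectively to the points of `ℤ × ℤ` -/
theorem exists_pr : ∃ pr : ℤ × ℤ → ℕ, Function.Injective pr ∧ (∀ s, (pr s).Prime) ∧
    ∀ s, pr s ≡ 1 [MOD 4] := by
  have h := Nat.infinite_setOfPred_prime_modEq_one (k := 4) (by norm_num)
  let f := h.natEmbedding
  refine ⟨fun s => (f (Encodable.encode s) : ℕ), fun a b hab => ?_, fun s => ?_, fun s => ?_⟩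
  · exact Encodable.encode_injective (f.injective (Subtype.ext hab))
  · exact (f (Encodable.encode s)).2.1
  · exact (f (Encodable.encode s)).2.2

/-- prime-free square blocks near the line `y = ξ x + η`, in a prescribed direction `σ = ± 1` -/
theorem block (ξ η : ℝ) (L : ℕ) (B : ℝ) (σ : ℤ) (hσ : σ = 1 ∨ σ = -1) :
    ∃ X Y : ℤ, B ≤ σ * X ∧ |(Y : ℝ) - ξ * X - η| ≤ 1 ∧
      ∀ i j : ℤ, |i| ≤ L → |j| ≤ L → ¬ Prime (⟨X + i, Y + j⟩ : GaussianInt) := by
  classical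
  obtain ⟨pr, hinj, hp, h4⟩ := exists_pr
  set y₀ : ℤ := round η with hy₀
  set S : Finset (ℤ × ℤ) := (Finset.Icc (-(L : ℤ)) L ×ˢ Finset.Icc (y₀ - L) (y₀ + L)) with hS
  set M : ℕ := ∏ s ∈ S, pr s with hM
  obtain ⟨b, hb⟩ := exists_nat_ge B
  set T₀ : ℕ := b + L + M + 1 with hT₀
  have hM1 : 1 ≤ M := Nat.one_le_iff_ne_zero.2 (Finset.prod_ne_zero_iff.2 fun s _ => (hp s).ne_zero)
  obtain ⟨q, hq1, hq2⟩ := Real.exists_rat_abs_sub_le_and_den_le ξ (n := 2 * (T₀ + M)) (by omega)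
  set k : ℤ := (q.den : ℤ) with hk
  set j₀ : ℤ := q.num with hj₀
  have hk1 : 1 ≤ k := by rw [hk]; exact_mod_cast q.pos
  have hcop : IsCoprime k j₀ := by
    rw [Int.isCoprime_iff_gcd_eq_one, Int.gcd_comm]
    exact q.reduced
  -- window
  obtain ⟨t, ht1, ht2, ht3⟩ : ∃ t : ℤ, (T₀ : ℤ) ≤ σ * t ∧ σ * t ≤ T₀ + M ∧
      ∀ s ∈ S, (pr s : ℤ) ∣ (s.1 + t * k) ^ 2 + (s.2 + t * j₀) ^ 2 := by
    rcases hσ with rfl | rfl
    · obtain ⟨t, h1, h2, h3⟩ := exists_t S pr hinj.injOn (fun s _ => hp s) (fun s _ => h4 s) k j₀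
        hcop T₀
      exact ⟨t, by omega, by omega, h3⟩
    · obtain ⟨t, h1, h2, h3⟩ := exists_t S pr hinj.injOn (fun s _ => hp s) (fun s _ => h4 s) k j₀
        hcop (-(T₀ : ℤ) - M)
      exact ⟨t, by omega, by omega, h3⟩
  have hσσ : σ * σ = 1 := by rcases hσ with rfl | rfl <;> norm_num
  have hXt : σ * t ≤ σ * (t * k) := by nlinarith
  refine ⟨t * k, y₀ + t * j₀, ?_, ?_, ?_⟩
  · have h1 : (T₀ : ℤ) ≤ σ * (t * k) := le_trans ht1 hXt
    have h2 : ((T₀ : ℤ) : ℝ) ≤ ((σ * (t * k) : ℤ) : ℝ) := by exact_mod_cast h1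
    push_cast at h2 ⊢
    have h3 : (b : ℝ) ≤ T₀ := by
      have : b ≤ T₀ := by omega
      exact_mod_cast this
    linarith
  · have hkR : (1 : ℝ) ≤ k := by exact_mod_cast hk1
    have hqk : (q : ℝ) * k = j₀ := by
      have h := Rat.mul_den_eq_num q
      rw [hk, hj₀]
      exact_mod_cast h
    have h1 : |(j₀ : ℝ) - ξ * k| ≤ 1 / (((2 * (T₀ + M) : ℕ) : ℝ) + 1) := by
      have h2 : (j₀ : ℝ) - ξ * k = -((ξ - q) * k) := by rw [← hqk]; ring
      rw [h2, abs_neg, abs_mul, abs_of_pos (by linarith : (0 : ℝ) < k)]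
      have h3 : ((q.den : ℕ) : ℝ) = (k : ℝ) := by rw [hk]; simp
      rw [h3] at hq1
      calc |ξ - q| * k ≤ 1 / ((((2 * (T₀ + M) : ℕ) : ℝ) + 1) * k) * k :=
            mul_le_mul_of_nonneg_right hq1 (by linarith)
        _ = _ := by
            have : (k : ℝ) ≠ 0 := by linarith
            field_simp
    have ht : |(t : ℝ)| ≤ T₀ + M := by
      have h2 : |t| ≤ T₀ + M := by
        rw [abs_le]
        rcases hσ with rfl | rfl <;> constructor <;> omega
      exact_mod_cast h2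
    have hy : |(y₀ : ℝ) - η| ≤ 1 / 2 := by
      rw [abs_sub_comm]
      exact abs_sub_round η
    have hpos : (0 : ℝ) ≤ (T₀ : ℝ) + M := by positivity
    have h4 : |(t : ℝ)| * |(j₀ : ℝ) - ξ * k| ≤ 1 / 2 := by
      calc |(t : ℝ)| * |(j₀ : ℝ) - ξ * k|
          ≤ (T₀ + M) * (1 / (((2 * (T₀ + M) : ℕ) : ℝ) + 1)) :=
            mul_le_mul ht h1 (abs_nonneg _) hpos
        _ ≤ 1 / 2 := by
            rw [mul_one_div, div_le_div_iff₀ (by positivity) (by norm_num)]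
            push_cast
            linarith
    calc |((y₀ + t * j₀ : ℤ) : ℝ) - ξ * ((t * k : ℤ) : ℝ) - η|
        = |((y₀ : ℝ) - η) + t * ((j₀ : ℝ) - ξ * k)| := by
          push_cast
          congr 1
          ring
      _ ≤ |(y₀ : ℝ) - η| + |(t : ℝ) * ((j₀ : ℝ) - ξ * k)| := abs_add_le _ _
      _ ≤ 1 := by rw [abs_mul]; linarith
  · intro i j hi hj hprime
    have hmem : ((i, y₀ + j) : ℤ × ℤ) ∈ S := by
      rw [hS, Finset.mem_product, Finset.mem_Icc, Finset.mem_Icc]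
      rw [abs_le] at hi hj
      constructor <;> constructor <;> simp <;> omega
    have hdvd := ht3 _ hmem
    have hnorm : (⟨t * k + i, y₀ + t * j₀ + j⟩ : GaussianInt).norm
        = (i + t * k) ^ 2 + (y₀ + j + t * j₀) ^ 2 := by
      simp only [Zsqrtd.norm_def]; ring
    have h1 := norm_le_of_prime hprime (hp (i, y₀ + j)) (by rw [hnorm]; exact hdvd)
    rw [hnorm] at h1
    have hpM : (pr (i, y₀ + j) : ℤ) ≤ M := by
      exact_mod_cast Nat.le_of_dvd hM1 (Finset.dvd_prod_of_mem pr hmem)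
    have hp0 : (0 : ℤ) ≤ pr (i, y₀ + j) := by positivity
    have h2 : (T₀ : ℤ) ≤ σ * (t * k) := le_trans ht1 hXt
    have h3 : (M : ℤ) + 1 ≤ σ * (i + t * k) := by
      rw [abs_le] at hi
      rcases hσ with rfl | rfl <;> push_cast [hT₀] at h2 <;> linarith
    have h4 : ((M : ℤ) + 1) ^ 2 ≤ (i + t * k) ^ 2 := by
      have : (i + t * k) ^ 2 = (σ * (i + t * k)) ^ 2 := by
        rw [mul_pow, sq σ, hσσ, one_mul]
      rw [this]
      exact pow_le_pow_left₀ (by positivity) h3 2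
    nlinarith [sq_nonneg (y₀ + j + t * j₀)]

end Vale.Agent.H20.P015
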