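import Vale.Agent.H20.P015.B

namespace Vale.Agent.H20.P015

open Filter Topology

/-- an infinite walk on Gaussian primes with steps at most `D` -/
def Walk (D : ℝ) (z : ℕ → GaussianInt) : Prop :=
  Function.Injective z ∧ (∀ n, Prime (z n)) ∧ ∀ n, ‖((z (n + 1) : GaussianInt) : ℂ) - (z n : ℂ)‖ ≤ D

theorem step_re {D : ℝ} {z : ℕ → GaussianInt} (h : Walk D z) (n : ℕ) :
    |((z (n + 1)).re : ℝ) - (z n).re| ≤ D := by
  have h1 := Complex.abs_re_le_norm (((z (n + 1) : GaussianInt) : ℂ) - (z n : ℂ))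
  have h2 := h.2.2 n
  simp only [Complex.sub_re, ← GaussianInt.intCast_re] at h1
  linarith

/-- crossing a vertical line -/
theorem cross {D : ℝ} {z : ℕ → GaussianInt} (h : Walk D z) (σ X : ℤ) (hσ : σ = 1 ∨ σ = -1)
    (N : ℕ) (h0 : σ * (z N).re ≤ σ * X) (n₁ : ℕ) (hn : N ≤ n₁) (h1 : σ * X ≤ σ * (z n₁).re) :
    ∃ n, N ≤ n ∧ |((z n).re : ℝ) - X| ≤ D := by
  have hD : 0 ≤ D := le_trans (norm_nonneg _) (h.2.2 0)
  obtain ⟨m, rfl⟩ := Nat.exists_eq_add_of_le hn
  clear hn
  have key : ∀ m : ℕ, σ * X ≤ σ * (z (N + m)).re → ∃ n, N ≤ n ∧ |((z n).re : ℝ) - X| ≤ D := by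
    intro m
    induction m with
    | zero =>
      intro hm
      refine ⟨N, le_rfl, ?_⟩
      have : (z N).re = X := by
        rcases hσ with rfl | rfl <;> simp at hm h0 <;> omega
      rw [this]; simpa using hD
    | succ m ih =>
      intro hm
      by_cases hc : σ * X ≤ σ * (z (N + m)).re
      · exact ih hc
      · refine ⟨N + (m + 1), by omega, ?_⟩
        push Not at hc
        have hs := step_re h (N + m)
        rw [abs_le] at hs ⊢
        have e : N + m + 1 = N + (m + 1) := by ring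
        rw [e] at hs
        rcases hσ with rfl | rfl
        · have a1 : X ≤ (z (N + (m + 1))).re := by omega
          have a2 : (z (N + m)).re < X := by omega
          have b1 : (X : ℝ) ≤ (z (N + (m + 1))).re := by exact_mod_cast a1
          have b2 : ((z (N + m)).re : ℝ) < X := by exact_mod_cast a2
          constructor <;> linarith
        · have a1 : (z (N + (m + 1))).re ≤ X := by omega
          have a2 : X < (z (N + m)).re := by omega
          have b1 : ((z (N + (m + 1))).re : ℝ) ≤ X := by exact_mod_cast a1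
          have b2 : (X : ℝ) < (z (N + m)).re := by exact_mod_cast a2
          constructor <;> linarith
  exact key m h1

theorem unbounded {z : ℕ → GaussianInt} (hz : Function.Injective z) (N : ℕ) (R : ℝ) :
    ∃ n, N ≤ n ∧ (R < |((z n).re : ℝ)| ∨ R < |((z n).im : ℝ)|) := by
  by_contra hcon
  push Not at hcon
  obtain ⟨r, hr⟩ := exists_nat_ge R
  have hfin : (Set.Icc (-(r : ℤ)) r ×ˢ Set.Icc (-(r : ℤ)) r).Finite :=
    (Set.finite_Icc _ _).prod (Set.finite_Icc _ _)
  have hinj : Function.Injective (fun n : ℕ => (((z (N + n)).re, (z (N + n)).im) : ℤ × ℤ)) := by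
    intro a b hab
    simp only [Prod.mk.injEq] at hab
    have : z (N + a) = z (N + b) := Zsqrtd.ext_iff.2 hab
    have := hz this
    omega
  refine Set.infinite_range_of_injective hinj (hfin.subset ?_)
  rintro _ ⟨n, rfl⟩
  obtain ⟨h1, h2⟩ := hcon (N + n) (by omega)
  have h1' : |(z (N + n)).re| ≤ (r : ℤ) := by
    have : |((z (N + n)).re : ℝ)| ≤ r := h1.trans hr
    exact_mod_cast this
  have h2' : |(z (N + n)).im| ≤ (r : ℤ) := by
    have : |((z (N + n)).im : ℝ)| ≤ r := h2.trans hr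
    exact_mod_cast this
  rw [abs_le] at h1' h2'
  exact ⟨⟨h1'.1, h1'.2⟩, ⟨h2'.1, h2'.2⟩⟩

/-- the main result for lines `y = ξ x + η` -/
theorem form1 (ξ η : ℝ) : ∃ g : ℝ → ℝ, Tendsto g atTop atTop ∧ ∀ (D : ℝ) (z : ℕ → GaussianInt),
    Walk D z → ∀ N : ℕ, ∃ n, N ≤ n ∧
      g ‖(z n : ℂ)‖ < |((z n).im : ℝ) - ξ * (z n).re - η| := by
  classical
  have hb : ∀ (L : ℕ) (σ : Bool), ∃ X Y : ℤ, (L : ℝ) ≤ (if σ then (1 : ℤ) else -1 : ℤ) * X ∧
      |(Y : ℝ) - ξ * X - η| ≤ 1 ∧ ∀ i j : ℤ, |i| ≤ (⌈(2 + |ξ|) * L + 1⌉₊ : ℕ) →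
        |j| ≤ (⌈(2 + |ξ|) * L + 1⌉₊ : ℕ) → ¬ Prime (⟨X + i, Y + j⟩ : GaussianInt) := by
    intro L σ
    exact block ξ η _ L _ (by cases σ <;> simp)
  choose X Y hX hY hXY using hb
  set F : ℕ → ℝ := fun L => 4 * L + (|(X L true : ℝ)| + |(X L false : ℝ)| + L) * (2 + 2 * |ξ|)
    + 2 * (|η| + 1) with hF
  have hF4 : ∀ L : ℕ, 4 * (L : ℝ) ≤ F L := by
    intro L
    simp only [hF]
    have : 0 ≤ (|(X L true : ℝ)| + |(X L false : ℝ)| + L) * (2 + 2 * |ξ|) + 2 * (|η| + 1) := by
      positivity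
    linarith
  have hne : ∀ r : ℝ, ∃ l : ℕ, r ≤ F l := by
    intro r
    obtain ⟨l, hl⟩ := exists_nat_ge (|r|)
    refine ⟨l, ?_⟩
    have := hF4 l
    have h1 := le_abs_self r
    have h2 : (0 : ℝ) ≤ l := Nat.cast_nonneg l
    linarith
  set g : ℝ → ℝ := fun r => (Nat.find (hne r) : ℝ) with hg
  have hgF : ∀ (r : ℝ) (L : ℕ), r ≤ F L → g r ≤ L := by
    intro r L h
    simp only [hg]
    exact_mod_cast Nat.find_min' (hne r) h
  have hg4 : ∀ r : ℝ, 0 ≤ r → g r ≤ r / 4 + 1 := by
    intro r hr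
    have h1 : r ≤ F ⌈r / 4⌉₊ := by
      have h2 := hF4 ⌈r / 4⌉₊
      have h3 := Nat.le_ceil (r / 4)
      linarith
    have h2 := hgF r _ h1
    have h3 := Nat.ceil_lt_add_one (a := r / 4) (by positivity)
    linarith
  refine ⟨g, ?_, ?_⟩
  · rw [tendsto_atTop]
    intro K
    obtain ⟨k, hk⟩ := exists_nat_ge K
    filter_upwards [eventually_gt_atTop (∑ l ∈ Finset.range k, F l)] with r hr
    by_contra hcon
    push Not at hcon
    have h1 : Nat.find (hne r) < k := by
      have : g r < k := lt_of_lt_of_le hcon hk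
      simp only [hg] at this
      exact_mod_cast this
    have h2 : r ≤ F (Nat.find (hne r)) := Nat.find_spec (hne r)
    have h3 : F (Nat.find (hne r)) ≤ ∑ l ∈ Finset.range k, F l :=
      Finset.single_le_sum (f := F) (fun l _ => by
        have := hF4 l
        have h2 : (0 : ℝ) ≤ l := Nat.cast_nonneg l
        linarith) (Finset.mem_range.2 h1)
    linarith
  · intro D z hz N
    by_contra hcon
    push Not at hcon
    have hD : 0 ≤ D := le_trans (norm_nonneg _) (hz.2.2 0)
    -- bound of the imaginary part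
    have him : ∀ n, N ≤ n → |((z n).im : ℝ)| ≤
        4 / 3 * ((|ξ| + 1 / 4) * |((z n).re : ℝ)| + |η| + 1) := by
      intro n hn
      have h1 := hcon n hn
      have h2 := hg4 _ (norm_nonneg ((z n : GaussianInt) : ℂ))
      have h3 : ‖((z n : GaussianInt) : ℂ)‖ ≤ |((z n).re : ℝ)| + |((z n).im : ℝ)| := by
        have := Complex.norm_le_abs_re_add_abs_im ((z n : GaussianInt) : ℂ)
        simpa using this
      have h4 : |((z n).im : ℝ)| ≤ |((z n).im : ℝ) - ξ * (z n).re - η| + |ξ| * |((z n).re : ℝ)| + |η| := by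
        have e : ((z n).im : ℝ) = (((z n).im : ℝ) - ξ * (z n).re - η) + (ξ * (z n).re) + η := by ring
        calc |((z n).im : ℝ)| = |(((z n).im : ℝ) - ξ * (z n).re - η) + (ξ * (z n).re) + η| := by
              rw [← e]
          _ ≤ |(((z n).im : ℝ) - ξ * (z n).re - η) + (ξ * (z n).re)| + |η| := abs_add_le _ _
          _ ≤ |((z n).im : ℝ) - ξ * (z n).re - η| + |ξ * (z n).re| + |η| := by
              gcongr; exact abs_add_le _ _
          _ = _ := by rw [abs_mul]
      linarith
    have hunb : ∀ R : ℝ, ∃ n, N ≤ n ∧ R < |((z n).re : ℝ)| := by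
      intro R
      obtain ⟨n, hn, h⟩ := unbounded hz.1 N (max R (4 / 3 * ((|ξ| + 1 / 4) * |R| + |η| + 1)))
      refine ⟨n, hn, ?_⟩
      rcases h with h | h
      · exact lt_of_le_of_lt (le_max_left _ _) h
      · by_contra hc
        push Not at hc
        have h1 := him n hn
        have h2 := lt_of_le_of_lt (le_max_right _ _) h
        have h3 : |((z n).re : ℝ)| ≤ |R| := hc.trans (le_abs_self R)
        have h4 : (|ξ| + 1 / 4) * |((z n).re : ℝ)| ≤ (|ξ| + 1 / 4) * |R| :=
          mul_le_mul_of_nonneg_left h3 (by positivity)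
        linarith
    obtain ⟨L, hL⟩ := exists_nat_ge (max D |((z N).re : ℝ)|)
    have hLD : D ≤ L := (le_max_left _ _).trans hL
    have hLN : |((z N).re : ℝ)| ≤ L := (le_max_right _ _).trans hL
    obtain ⟨n₁, hn₁, hR⟩ := hunb (max |(X L true : ℝ)| |(X L false : ℝ)|)
    -- the direction
    obtain ⟨s, n, hn, hnX⟩ : ∃ s : Bool, ∃ n, N ≤ n ∧ |((z n).re : ℝ) - X L s| ≤ D := by
      rcases le_or_gt 0 (z n₁).re with hs | hs
      · refine ⟨true, ?_⟩
        refine cross hz 1 (X L true) (Or.inl rfl) N ?_ n₁ hn₁ ?_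
        · have h1 := hX L true
          simp only [if_true, Int.cast_one, one_mul] at h1
          have h2 := le_abs_self ((z N).re : ℝ)
          have h3 : ((z N).re : ℝ) ≤ X L true := by linarith
          have h4 : (z N).re ≤ X L true := by exact_mod_cast h3
          simpa using h4
        · have h1 := lt_of_le_of_lt (le_max_left _ _) hR
          rw [abs_of_nonneg (a := ((z n₁).re : ℝ)) (by exact_mod_cast hs)] at h1
          have h2 := le_abs_self (X L true : ℝ)
          have h3 : (X L true : ℝ) ≤ (z n₁).re := by linarith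
          have h4 : X L true ≤ (z n₁).re := by exact_mod_cast h3
          simpa using h4
      · refine ⟨false, ?_⟩
        refine cross hz (-1) (X L false) (Or.inr rfl) N ?_ n₁ hn₁ ?_
        · have h1 := hX L false
          simp only [Bool.false_eq_true, if_false, Int.cast_neg, Int.cast_one] at h1
          have h2 := neg_abs_le ((z N).re : ℝ)
          have h3 : (X L false : ℝ) ≤ (z N).re := by linarith
          have h4 : X L false ≤ (z N).re := by exact_mod_cast h3
          linarith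
        · have h1 := lt_of_le_of_lt (le_max_right _ _) hR
          rw [abs_of_neg (a := ((z n₁).re : ℝ)) (by exact_mod_cast hs)] at h1
          have h2 := neg_abs_le (X L false : ℝ)
          have h3 : ((z n₁).re : ℝ) ≤ X L false := by linarith
          have h4 : (z n₁).re ≤ X L false := by exact_mod_cast h3
          linarith
    have hre : |((z n).re : ℝ)| ≤ |(X L true : ℝ)| + |(X L false : ℝ)| + L := by
      have h1 : |((z n).re : ℝ)| ≤ |((z n).re : ℝ) - X L s| + |(X L s : ℝ)| := by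
        have := abs_add_le (((z n).re : ℝ) - X L s) (X L s)
        simpa using this
      have h2 : |(X L s : ℝ)| ≤ |(X L true : ℝ)| + |(X L false : ℝ)| := by
        cases s
        · linarith [abs_nonneg (X L true : ℝ)]
        · linarith [abs_nonneg (X L false : ℝ)]
      linarith
    have hnF : ‖((z n : GaussianInt) : ℂ)‖ ≤ F L := by
      have h3 : ‖((z n : GaussianInt) : ℂ)‖ ≤ |((z n).re : ℝ)| + |((z n).im : ℝ)| := by
        have := Complex.norm_le_abs_re_add_abs_im ((z n : GaussianInt) : ℂ)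
        simpa using this
      have h4 := him n hn
      have h5 : (|ξ| + 1 / 4) * |((z n).re : ℝ)| ≤
          (|ξ| + 1 / 4) * (|(X L true : ℝ)| + |(X L false : ℝ)| + L) :=
        mul_le_mul_of_nonneg_left hre (by positivity)
      simp only [hF]
      have h6 : 0 ≤ |ξ| * (|(X L true : ℝ)| + |(X L false : ℝ)| + L) := by positivity
      have h7 : (0 : ℝ) ≤ |(X L true : ℝ)| + |(X L false : ℝ)| + L := by positivity
      have h8 : (0 : ℝ) ≤ L := Nat.cast_nonneg L
      have h9 := abs_nonneg η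
      nlinarith
    have hd : |((z n).im : ℝ) - ξ * (z n).re - η| ≤ L := (hcon n hn).trans (hgF _ _ hnF)
    -- contradiction with the block
    have hL' : (2 + |ξ|) * L + 1 ≤ (⌈(2 + |ξ|) * (L : ℝ) + 1⌉₊ : ℕ) := Nat.le_ceil _
    have hx : |(z n).re - X L s| ≤ ((⌈(2 + |ξ|) * (L : ℝ) + 1⌉₊ : ℕ) : ℤ) := by
      have h1 : |((z n).re : ℝ) - X L s| ≤ (⌈(2 + |ξ|) * (L : ℝ) + 1⌉₊ : ℕ) := by
        have h8 : (0 : ℝ) ≤ L := Nat.cast_nonneg L
        have h9 : 0 ≤ |ξ| * (L : ℝ) := by positivity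
        nlinarith
      exact_mod_cast h1
    have hy : |(z n).im - Y L s| ≤ ((⌈(2 + |ξ|) * (L : ℝ) + 1⌉₊ : ℕ) : ℤ) := by
      have h1 : |((z n).im : ℝ) - Y L s| ≤ L + |ξ| * D + 1 := by
        have e : ((z n).im : ℝ) - Y L s = (((z n).im : ℝ) - ξ * (z n).re - η)
            + ξ * (((z n).re : ℝ) - X L s) + -((Y L s : ℝ) - ξ * X L s - η) := by ring
        rw [e]
        calc _ ≤ |(((z n).im : ℝ) - ξ * (z n).re - η) + ξ * (((z n).re : ℝ) - X L s)|
              + |-((Y L s : ℝ) - ξ * X L s - η)| := abs_add_le _ _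
          _ ≤ |((z n).im : ℝ) - ξ * (z n).re - η| + |ξ * (((z n).re : ℝ) - X L s)|
              + |-((Y L s : ℝ) - ξ * X L s - η)| := by gcongr; exact abs_add_le _ _
          _ ≤ L + |ξ| * D + 1 := by
              rw [abs_neg, abs_mul]
              have := hY L s
              gcongr
      have h2 : |ξ| * D ≤ |ξ| * L := mul_le_mul_of_nonneg_left hLD (abs_nonneg _)
      have h8 : (0 : ℝ) ≤ L := Nat.cast_nonneg L
      have h3 : |((z n).im : ℝ) - Y L s| ≤ (⌈(2 + |ξ|) * (L : ℝ) + 1⌉₊ : ℕ) := by linarith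
      exact_mod_cast h3
    have := hXY L s _ _ hx hy
    apply this
    have e : (⟨X L s + ((z n).re - X L s), Y L s + ((z n).im - Y L s)⟩ : GaussianInt) = z n := by
      rw [Zsqrtd.ext_iff]; simp
    rw [e]
    exact hz.2.1 n

end Vale.Agent.H20.P015
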