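import Vale.Agent.H20.P015.C

namespace Vale.Agent.H20.P015

open Filter Topology

/-- interchange of the coordinates -/
def sw (z : GaussianInt) : GaussianInt := ⟨z.im, z.re⟩

theorem prime_sw {z : GaussianInt} (h : Prime z) : Prime (sw z) := by
  have h1 : Prime (star z) := by
    exact (MulEquiv.prime_iff (starMulAut : MulAut GaussianInt) (p := z)).2 h
  have hu : Associated (star z) (sw z) := by
    refine ⟨⟨⟨0, 1⟩, ⟨0, -1⟩, by ext <;> simp, by ext <;> simp⟩, ?_⟩
    ext <;> simp [sw]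
  exact hu.prime h1

theorem norm_sw (a b : GaussianInt) : ‖((sw a : GaussianInt) : ℂ) - (sw b : GaussianInt)‖
    = ‖(a : ℂ) - (b : ℂ)‖ := by
  rw [Complex.norm_eq_sqrt_sq_add_sq, Complex.norm_eq_sqrt_sq_add_sq]
  congr 1
  simp only [Complex.sub_re, Complex.sub_im, ← GaussianInt.intCast_re,
    ← GaussianInt.intCast_im, sw]
  ring

theorem norm_sw' (a : GaussianInt) : ‖((sw a : GaussianInt) : ℂ)‖ = ‖(a : ℂ)‖ := by
  rw [Complex.norm_eq_sqrt_sq_add_sq, Complex.norm_eq_sqrt_sq_add_sq]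
  congr 1
  simp only [Complex.sub_re, Complex.sub_im, ← GaussianInt.intCast_re,
    ← GaussianInt.intCast_im, sw]
  ring

theorem sw_injective : Function.Injective sw := by
  intro a b h
  simp only [sw, Zsqrtd.ext_iff] at h
  exact Zsqrtd.ext_iff.2 ⟨h.2, h.1⟩

theorem walk_sw {D : ℝ} {z : ℕ → GaussianInt} (h : Walk D z) : Walk D (fun n => sw (z n)) := by
  refine ⟨sw_injective.comp h.1, fun n => prime_sw (h.2.1 n), fun n => ?_⟩
  rw [norm_sw]
  exact h.2.2 n

/-- disks centred on the line `y = ξ x + η` -/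
theorem disk1 (ξ η r : ℝ) : ∃ x : ℝ, ∀ w : GaussianInt, Prime w →
    r < |(w.re : ℝ) - x| ∨ r < |(w.im : ℝ) - (ξ * x + η)| := by
  obtain ⟨X, Y, -, hY, hXY⟩ := block ξ η ⌈|r| + 1⌉₊ 0 1 (Or.inl rfl)
  refine ⟨X, fun w hw => ?_⟩
  by_contra hcon
  push Not at hcon
  obtain ⟨h1, h2⟩ := hcon
  have hL := Nat.le_ceil (|r| + 1)
  have hr := le_abs_self r
  have hx : |w.re - X| ≤ ((⌈|r| + 1⌉₊ : ℕ) : ℤ) := by
    have : |(w.re : ℝ) - X| ≤ (⌈|r| + 1⌉₊ : ℕ) := by linarith
    exact_mod_cast this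
  have hy : |w.im - Y| ≤ ((⌈|r| + 1⌉₊ : ℕ) : ℤ) := by
    have h3 : |(w.im : ℝ) - Y| ≤ |(w.im : ℝ) - (ξ * X + η)| + |(Y : ℝ) - ξ * X - η| := by
      have e : (w.im : ℝ) - Y = ((w.im : ℝ) - (ξ * X + η)) + -((Y : ℝ) - ξ * X - η) := by ring
      rw [e]
      refine (abs_add_le _ _).trans ?_
      rw [abs_neg]
    have : |(w.im : ℝ) - Y| ≤ (⌈|r| + 1⌉₊ : ℕ) := by linarith
    exact_mod_cast this
  apply hXY _ _ hx hy
  have e : (⟨X + (w.re - X), Y + (w.im - Y)⟩ : GaussianInt) = w := by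
    rw [Zsqrtd.ext_iff]; simp
  rw [e]; exact hw

theorem disk_final (A B C : ℝ) (h : A ≠ 0 ∨ B ≠ 0) (r : ℝ) :
    ∃ c : ℂ, A * c.re + B * c.im = C ∧ ∀ w : GaussianInt, Irreducible w → r < ‖(w : ℂ) - c‖ := by
  rcases eq_or_ne B 0 with hB | hB
  · have hA : A ≠ 0 := by
      rcases h with h | h
      · exact h
      · exact absurd hB h
    obtain ⟨x, hx⟩ := disk1 (-B / A) (C / A) r
    refine ⟨⟨C / A, x⟩, ?_, fun w hw => ?_⟩
    · simp only [hB]; field_simp; ring
    · have hp : Prime (sw w) := prime_sw hw.prime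
      have h1 := hx _ hp
      have hre := Complex.abs_re_le_norm ((w : ℂ) - ⟨C / A, x⟩)
      have him := Complex.abs_im_le_norm ((w : ℂ) - ⟨C / A, x⟩)
      simp only [Complex.sub_re, Complex.sub_im, ← GaussianInt.intCast_re,
        ← GaussianInt.intCast_im] at hre him
      simp only [sw, hB, neg_zero, zero_div, zero_mul, zero_add] at h1
      rcases h1 with h1 | h1
      · linarith
      · linarith
  · obtain ⟨x, hx⟩ := disk1 (-A / B) (C / B) r
    refine ⟨⟨x, -A / B * x + C / B⟩, ?_, fun w hw => ?_⟩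
    · simp only; field_simp; ring
    · have h1 := hx _ hw.prime
      have hre := Complex.abs_re_le_norm ((w : ℂ) - ⟨x, -A / B * x + C / B⟩)
      have him := Complex.abs_im_le_norm ((w : ℂ) - ⟨x, -A / B * x + C / B⟩)
      simp only [Complex.sub_re, Complex.sub_im, ← GaussianInt.intCast_re,
        ← GaussianInt.intCast_im] at hre him
      rcases h1 with h1 | h1
      · linarith
      · linarith

theorem walk_final (A B C : ℝ) (h : A ≠ 0 ∨ B ≠ 0) :
    ∃ g : ℝ → ℝ, Tendsto g atTop atTop ∧ ∀ (D : ℝ) (z : ℕ → GaussianInt),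
      Function.Injective z → (∀ n, Irreducible (z n)) →
      (∀ n, ‖((z (n + 1) : GaussianInt) : ℂ) - (z n : ℂ)‖ ≤ D) →
      ∃ᶠ n in atTop, g ‖(z n : ℂ)‖ <
        |A * (z n).re + B * (z n).im - C| / √(A ^ 2 + B ^ 2) := by
  have hS : 0 < √(A ^ 2 + B ^ 2) := by
    apply Real.sqrt_pos.2
    rcases h with h | h <;> positivity
  rcases eq_or_ne B 0 with hB | hB
  · have hA : A ≠ 0 := by
      rcases h with h | h
      · exact h
      · exact absurd hB h
    obtain ⟨g, hg, hgw⟩ := form1 0 (C / A)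
    have hc : 0 < |A| / √(A ^ 2 + B ^ 2) := div_pos (abs_pos.2 hA) hS
    refine ⟨fun r => g r * (|A| / √(A ^ 2 + B ^ 2)), hg.atTop_mul_const hc, ?_⟩
    intro D z hinj hirr hstep
    rw [Filter.frequently_atTop]
    intro N
    have hw : Walk D z := ⟨hinj, fun n => (hirr n).prime, hstep⟩
    obtain ⟨n, hn, h1⟩ := hgw D _ (walk_sw hw) N
    refine ⟨n, hn, ?_⟩
    rw [norm_sw'] at h1
    have h2 : |A * ((z n).re : ℝ) + B * (z n).im - C|
        = |((sw (z n)).im : ℝ) - 0 * (sw (z n)).re - C / A| * |A| := by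
      rw [← abs_mul]
      congr 1
      simp only [sw, hB]
      field_simp
      ring
    rw [h2, mul_div_assoc]
    exact mul_lt_mul_of_pos_right h1 hc
  · obtain ⟨g, hg, hgw⟩ := form1 (-A / B) (C / B)
    have hc : 0 < |B| / √(A ^ 2 + B ^ 2) := div_pos (abs_pos.2 hB) hS
    refine ⟨fun r => g r * (|B| / √(A ^ 2 + B ^ 2)), hg.atTop_mul_const hc, ?_⟩
    intro D z hinj hirr hstep
    rw [Filter.frequently_atTop]
    intro N
    have hw : Walk D z := ⟨hinj, fun n => (hirr n).prime, hstep⟩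
    obtain ⟨n, hn, h1⟩ := hgw D _ hw N
    refine ⟨n, hn, ?_⟩
    have h2 : |A * ((z n).re : ℝ) + B * (z n).im - C|
        = |((z n).im : ℝ) - -A / B * (z n).re - C / B| * |B| := by
      rw [← abs_mul]
      congr 1
      field_simp
      ring
    rw [h2, mul_div_assoc]
    exact mul_lt_mul_of_pos_right h1 hc

end Vale.Agent.H20.P015
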